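import Mathlib
import Vale.Agent.P045.Degree

/-!
Ryser's conjecture for hypergraphs of maximum degree at most five (in the stated ranges of `r`).
-/

theorem Vale.Agent.Results.P045.DegreeFive.result :
    ∀ (r nu D : ℕ),
      ((D ≤ 3 ∧ (5 ≤ r ∨ (r = 4 ∧ nu ≤ 95))) ∨ (D ≤ 4 ∧ (7 ≤ r ∨ (r = 6 ∧ nu ≤ 191))) ∨
        (D ≤ 5 ∧ (14 ≤ r ∨ (4 ≤ r ∧ nu ≤ 1)))) →
      ∀ (V : Type) [Fintype V] [DecidableEq V] (part : V → Fin r) (H : Finset (Finset V)),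
        (∀ e ∈ H, ∀ i, (e.filter fun v => part v = i).card = 1) →
        (∀ v, (H.filter fun e => v ∈ e).card ≤ D) →
        (∀ M ⊆ H, (M : Set (Finset V)).PairwiseDisjoint id → M.card ≤ nu) →
        ∃ C : Finset V, (∀ e ∈ H, ∃ v ∈ C, v ∈ e) ∧ C.card ≤ (r - 1) * nu :=
  fun _ _ _ h _ _ _ part H h1 h2 h3 => Vale.Agent.P045.cover_small part H h1 h2 h3 h
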