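import Vale.Agent.P045.Spread.Main

namespace Vale.Agent.Results.P045.SpreadBoundedDegree

open Finset

/-- Ryser's inequality for uniform hypergraphs of bounded degree, large uniformity and small
pairwise intersections. -/
theorem result :
    ∀ (D : ℕ) (ε : ℝ), 0 < ε →
    ∃ (r₀ : ℕ) (η : ℝ), 0 < η ∧ ∀ (r nu : ℕ), r₀ ≤ r →
      ∀ (V : Type) [Fintype V] [DecidableEq V] (H : Finset (Finset V)),
        (∀ e ∈ H, e.card = r) →
        (∀ v, (H.filter fun e => v ∈ e).card ≤ D) →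
        (∀ e ∈ H, ∀ f ∈ H, e ≠ f → ((e ∩ f).card : ℝ) ≤ η * r) →
        (∀ M ⊆ H, (M : Set (Finset V)).PairwiseDisjoint id → M.card ≤ nu) →
        ∃ C : Finset V, (∀ e ∈ H, ∃ v ∈ C, v ∈ e) ∧ C.card ≤ (r - 1) * nu ∧
          (C.card : ℝ) ≤ (1 - 1 / D + ε) * r * nu :=
  fun D ε hε => Vale.Agent.P045.Spread.cover_spread D ε hε

end Vale.Agent.Results.P045.SpreadBoundedDegree
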